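import Vale.Agent.P086.Invariance
import Vale.Agent.P086.Statics
import Vale.Agent.P086.Flow
import Vale.Agent.P086.Limit
import Vale.Agent.P086.Model.Main
import Vale.Agent.P086.Lit.Bridge

namespace Vale.Agent.Results.P086.FreeGroupFactorsIso

/-- The free group factors of ranks three and four are isomorphic. -/
theorem result : VP086.Lit.FreeFactorsIso 3 4 :=
  VP086.lit_pair
    (VP086.Model.iso_of_limit (VP086.Lim.limit VP086.invariance VP086.statics VP086.flow))

end Vale.Agent.Results.P086.FreeGroupFactorsIso
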